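import Vale.Agent.P004.L3
import Vale.Agent.P004H.H871.Kron

/-!
# P004: fundamental discriminants are equidistributed in the signed admissible residue classes
-/

open Filter Topology Finset
open scoped Classical

namespace Vale.Agent.N004

open _root_.P004 (Fam IsFund)
open Vale.Agent.P004H.H871 (Fd)

/-- not divisible by the square of a prime outside `Q` -/
def Free (Q : ℕ) (n : ℤ) : Prop := ∀ p : ℕ, p.Prime → ¬ p ∣ Q → ¬ (p : ℤ) ^ 2 ∣ n

/-- the integers of sign `σ` and size at most `X` with the property `P` -/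
noncomputable def box (σ : ℤ) (P : ℤ → Prop) (X : ℕ) : Finset ℤ :=
  (Icc (-(X : ℤ)) X).filter fun n => 0 < σ * n ∧ P n

lemma mem_box {σ : ℤ} {P : ℤ → Prop} {X : ℕ} {n : ℤ} :
    n ∈ box σ P X ↔ (-(X : ℤ) ≤ n ∧ n ≤ X) ∧ 0 < σ * n ∧ P n := by
  simp only [box, mem_filter, mem_Icc]

/-- the number of free integers in a signed class -/
noncomputable def g (Q : ℕ) (σ b : ℤ) (X : ℕ) : ℝ :=
  (box σ (fun n => n ≡ b [ZMOD Q] ∧ Free Q n) X).card

variable {Q : ℕ} {σ σ' b b' : ℤ}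

lemma tail (hσ : σ = 1 ∨ σ = -1) {y : ℕ} (hy : y ≠ 0) (X : ℕ) :
    ((box σ (fun n => ∃ k : ℕ, y < k ∧ (k : ℤ) ^ 2 ∣ n) X).card : ℝ) ≤ X / y := by
  have h1 : box σ (fun n => ∃ k : ℕ, y < k ∧ (k : ℤ) ^ 2 ∣ n) X ⊆
      (Ioc y (X + y)).biUnion fun k => ((Ioc 0 X).filter (k ^ 2 ∣ ·)).image
        fun n : ℕ => σ * n := by
    intro n hn
    obtain ⟨h1, h2, k, h3, h4⟩ := mem_box.1 hn
    have h5 : k ^ 2 ∣ n.natAbs := by
      rw [← Int.natCast_dvd_natCast, Int.dvd_natAbs]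
      exact_mod_cast h4
    have h6 : 0 < n.natAbs ∧ n.natAbs ≤ X ∧ σ * n.natAbs = n := by
      rcases hσ with rfl | rfl <;> omega
    have h7 := Nat.le_of_dvd h6.1 h5
    simp only [mem_biUnion, mem_image, mem_filter, mem_Ioc]
    exact ⟨k, ⟨h3, by nlinarith⟩, n.natAbs, ⟨⟨h6.1, h6.2.1⟩, h5⟩, h6.2.2⟩
  have h2 : ((box σ (fun n => ∃ k : ℕ, y < k ∧ (k : ℤ) ^ 2 ∣ n) X).card : ℝ) ≤
      ∑ k ∈ Ioc y (X + y), (X : ℝ) * ((k : ℝ) ^ 2)⁻¹ := by
    refine (Nat.cast_le.2 ((card_le_card h1).trans card_biUnion_le)).trans ?_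
    push_cast
    refine sum_le_sum fun k _ => (Nat.cast_le.2 card_image_le).trans ?_
    rw [Nat.Ioc_filter_dvd_card_eq_div, ← div_eq_mul_inv]
    exact Nat.cast_div_le.trans_eq (by push_cast; rfl)
  refine h2.trans ?_
  rw [← mul_sum, div_eq_mul_inv]
  refine mul_le_mul_of_nonneg_left ((sum_Ioc_inv_sq_le_sub hy (by omega)).trans ?_) (by positivity)
  exact sub_le_self _ (by positivity)

lemma g_le (hQ : Q ≠ 0) (hσ : σ = 1 ∨ σ = -1) (hσ' : σ' = 1 ∨ σ' = -1) (b b' : ℤ) {y : ℕ}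
    (hy : y ≠ 0) : ∃ t : ℕ, ∀ X : ℕ, g Q σ b X ≤ g Q σ' b' X + X / y + t := by
  set R : ℕ := ∏ p ∈ (range (y + 1)).filter fun p => p.Prime ∧ ¬ p ∣ Q, p ^ 2 with hR
  have hc : Q.Coprime R := Nat.Coprime.prod_right fun p hp =>
    ((Nat.Prime.coprime_iff_not_dvd (mem_filter.1 hp).2.1).2 (mem_filter.1 hp).2.2).symm.pow_right 2
  obtain ⟨t, h1, h2⟩ := Nat.chineseRemainder hc ((σ' * b' - σ * b) % Q).toNat 0
  have h3 : (t : ℤ) ≡ σ' * b' - σ * b [ZMOD Q] := by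
    refine (Int.natCast_modEq_iff.2 h1).trans ?_
    rw [Int.toNat_of_nonneg (Int.emod_nonneg _ (by exact_mod_cast hQ))]
    exact Int.mod_modEq _ _
  have h4 : (R : ℤ) ∣ t := by exact_mod_cast (Nat.modEq_zero_iff_dvd.1 h2)
  refine ⟨t, fun X => ?_⟩
  have h5 : ∀ n ∈ box σ (fun n => n ≡ b [ZMOD Q] ∧ Free Q n) X, σ' * (σ * n + t) ∈
      box σ' (fun n => n ≡ b' [ZMOD Q] ∧ Free Q n) X ∪
        box σ' (fun n => ∃ k : ℕ, y < k ∧ (k : ℤ) ^ 2 ∣ n) X ∪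
        (Ioc X (X + t)).image fun n : ℕ => σ' * n := by
    intro n hn
    obtain ⟨k1, k2, k3, k4⟩ := mem_box.1 hn
    simp only [mem_union, mem_box, mem_image, mem_Ioc]
    by_cases c : σ * n + t ≤ X
    · left
      have e1 : (-(X : ℤ) ≤ σ' * (σ * n + t) ∧ σ' * (σ * n + t) ≤ X) ∧
          0 < σ' * (σ' * (σ * n + t)) := by
        rcases hσ' with rfl | rfl <;> omega
      by_cases c2 : Free Q (σ' * (σ * n + t))
      · refine .inl ⟨e1.1, e1.2, ?_, c2⟩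
        have := (((k3.mul_left σ).add h3).mul_left σ')
        convert this using 1
        rcases hσ' with rfl | rfl <;> ring
      · simp only [Free, not_forall, not_not] at c2
        obtain ⟨p, hp, p1, p2⟩ := c2
        refine .inr ⟨e1.1, e1.2, p, by_contra fun c3 => k4 p hp p1 ?_, p2⟩
        have p0 : p ^ 2 ∣ R := dvd_prod_of_mem (fun p : ℕ => p ^ 2)
          (mem_filter.2 ⟨mem_range.2 (by omega), hp, p1⟩)
        have p3 : (p : ℤ) ^ 2 ∣ t := Dvd.dvd.trans (by exact_mod_cast p0) h4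
        have p4 : n = σ * (σ' * (σ' * (σ * n + t)) - t) := by
          rcases hσ with rfl | rfl <;> rcases hσ' with rfl | rfl <;> ring
        rw [p4]
        exact ((p2.mul_left _).sub p3).mul_left _
    · refine .inr ⟨(σ * n + t).toNat, ?_, by rw [Int.toNat_of_nonneg (by omega)]⟩
      rcases hσ with rfl | rfl <;> omega
  have h6 := card_le_card_of_injOn _ h5 (fun n _ m _ h => by
    rcases hσ with rfl | rfl <;> rcases hσ' with rfl | rfl <;> omega)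
  have h7 := h6.trans ((card_union_le _ _).trans (add_le_add (card_union_le _ _) card_image_le))
  rw [Nat.card_Ioc, Nat.add_sub_cancel_left] at h7
  have h8 := tail hσ' hy X
  have h9 := (Nat.cast_le (α := ℝ)).2 h7
  push_cast at h9
  unfold g
  linarith

lemma g_sub (hQ : Q ≠ 0) (hσ : σ = 1 ∨ σ = -1) (hσ' : σ' = 1 ∨ σ' = -1) (b b' : ℤ) :
    Tendsto (fun X : ℕ => (g Q σ b X - g Q σ' b' X) / X) atTop (𝓝 0) := by
  rw [Metric.tendsto_nhds]
  intro ε hε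
  obtain ⟨y, hy⟩ := exists_nat_one_div_lt (half_pos hε)
  obtain ⟨t, h1⟩ := g_le hQ hσ hσ' b b' y.succ_ne_zero
  obtain ⟨t', h2⟩ := g_le hQ hσ' hσ b' b y.succ_ne_zero
  filter_upwards [(tendsto_const_div_atTop_nhds_zero_nat ((t : ℝ) + t')).eventually_lt_const
    (half_pos hε), eventually_gt_atTop 0] with X h3 h4
  have hX : (0 : ℝ) < X := by exact_mod_cast h4
  rw [div_lt_iff₀ hX] at h3
  have h5 : (X : ℝ) / (y.succ : ℕ) < ε / 2 * X := by
    rw [div_eq_mul_one_div, mul_comm]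
    push_cast
    gcongr
  rw [Real.dist_eq, sub_zero, abs_div, abs_of_pos hX, div_lt_iff₀ hX, abs_lt]
  have := h1 X
  have := h2 X
  have : (0 : ℝ) ≤ t := t.cast_nonneg
  have : (0 : ℝ) ≤ t' := t'.cast_nonneg
  constructor <;> linarith

lemma sqf_iff {n : ℤ} : Squarefree n ↔ ∀ p : ℕ, p.Prime → ¬ (p : ℤ) ^ 2 ∣ n := by
  rw [← Int.squarefree_natAbs, Nat.squarefree_iff_prime_squarefree]
  refine forall_congr' fun p => forall_congr' fun _ => not_congr ?_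
  rw [← Int.natCast_dvd_natCast, Int.dvd_natAbs, sq]
  push_cast
  rfl

lemma free_of_fd {t : ℕ} {n : ℤ} (h : Fd n) : Free (16 * t ^ 2) n := by
  intro p hp h1 h2
  rcases h with ⟨-, h⟩ | ⟨d, rfl, -, h⟩
  · exact sqf_iff.1 h p hp h2
  · have h3 : p.Coprime 2 := (Nat.coprime_primes hp Nat.prime_two).2 (by
      rintro rfl
      exact h1 ⟨8 * t ^ 2, by ring⟩)
    have h4 : IsCoprime ((p : ℤ) ^ 2) 4 := by
      have := (Nat.isCoprime_iff_coprime.2 h3).pow (m := 2) (n := 2)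
      norm_num at this ⊢
      exact this
    exact sqf_iff.1 h p hp (h4.dvd_of_dvd_mul_left h2)

lemma fd_of_free {t : ℕ} {n D : ℤ} (hD : Fd D) (h : n ≡ D [ZMOD (16 * t ^ 2 : ℕ)])
    (hn : Free (16 * t ^ 2) n) : Fd n := by
  obtain ⟨k, hk⟩ := h.dvd
  push_cast at hk
  have key : ∀ p : ℕ, p.Prime → p ∣ 16 * t ^ 2 → (p : ℤ) ^ 2 ∣ 4 * t ^ 2 := fun p hp h1 => by
    have : p ∣ 2 * t := hp.dvd_of_dvd_pow (n := 4) (h1.trans ⟨t ^ 2, by ring⟩)
    have h2 : p ^ 2 ∣ 4 * t ^ 2 := (pow_dvd_pow_of_dvd this 2).trans ⟨1, by ring⟩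
    exact_mod_cast h2
  rcases hD with ⟨h1, h2⟩ | ⟨d, rfl, h1, h2⟩
  · have e : n = D - 4 * (4 * t ^ 2 * k) := by linarith
    refine .inl ⟨by omega, sqf_iff.2 fun p hp h3 => ?_⟩
    by_cases c : p ∣ 16 * t ^ 2
    · refine sqf_iff.1 h2 p hp ?_
      rw [show D = n + 4 * (4 * t ^ 2 * k) by linarith]
      exact h3.add (((key p hp c).mul_right _).mul_left _)
    · exact hn p hp c h3
  · have e : n = 4 * (d - 4 * (t ^ 2 * k)) := by linarith
    refine .inr ⟨d - 4 * (t ^ 2 * k), e, by omega, sqf_iff.2 fun p hp h3 => ?_⟩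
    by_cases c : p ∣ 16 * t ^ 2
    · refine sqf_iff.1 h2 p hp ?_
      rw [show d = d - 4 * (t ^ 2 * k) + 4 * t ^ 2 * k by ring]
      exact h3.add ((key p hp c).mul_right _)
    · exact hn p hp c (e ▸ h3.mul_left _)

/-- the fundamental discriminants with the property `P` -/
noncomputable def flt (P : ℤ → Prop) (X : ℕ) : Finset ℤ := (Fam X).filter P

/-- their number -/
noncomputable def cnt (P : ℤ → Prop) (X : ℕ) : ℝ := (flt P X).card

lemma mem_fam {X : ℕ} {D : ℤ} : D ∈ Fam X ↔ (-(X : ℤ) ≤ D ∧ D ≤ X) ∧ D ≠ 1 ∧ Fd D := by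
  simp only [Fam, mem_filter, mem_Icc]
  rfl

lemma mem_flt {P : ℤ → Prop} {X : ℕ} {D : ℤ} : D ∈ flt P X ↔ D ∈ Fam X ∧ P D := mem_filter

lemma cnt_class {t : ℕ} {D : ℤ} (hD : Fd D) (X : ℕ) :
    |cnt (fun n => 0 < σ * n ∧ n ≡ D [ZMOD (16 * t ^ 2 : ℕ)]) X - g (16 * t ^ 2) σ D X| ≤ 1 := by
  have e : flt (fun n => 0 < σ * n ∧ n ≡ D [ZMOD (16 * t ^ 2 : ℕ)]) X =
      (box σ (fun n => n ≡ D [ZMOD (16 * t ^ 2 : ℕ)] ∧ Free (16 * t ^ 2) n) X).erase 1 := by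
    ext n
    rw [mem_flt, mem_erase, mem_box, mem_fam]
    exact ⟨fun h => ⟨h.1.2.1, h.1.1, h.2.1, h.2.2, free_of_fd h.1.2.2⟩,
      fun h => ⟨⟨h.2.1, h.1, fd_of_free hD h.2.2.2.1 h.2.2.2.2⟩, h.2.2.1, h.2.2.2.1⟩⟩
  have h1 := card_erase_le (a := 1)
    (s := box σ (fun n => n ≡ D [ZMOD (16 * t ^ 2 : ℕ)] ∧ Free (16 * t ^ 2) n) X)
  have h2 := pred_card_le_card_erase (a := 1)
    (s := box σ (fun n => n ≡ D [ZMOD (16 * t ^ 2 : ℕ)] ∧ Free (16 * t ^ 2) n) X)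
  have h3 := (Nat.cast_le (α := ℝ)).2 h1
  have h4 := (Nat.cast_le (α := ℝ)).2 (tsub_le_iff_right.1 h2)
  rw [Nat.cast_add, Nat.cast_one] at h4
  unfold cnt g
  rw [abs_le, e]
  constructor <;> linarith

lemma cnt_per {t : ℕ} (ht : t ≠ 0) {P : ℤ → Prop}
    (hP : ∀ D D', D ≡ D' [ZMOD (16 * t ^ 2 : ℕ)] → P D → P D') :
    ∃ n : ℕ, ((∃ D, Fd D ∧ P D) → 0 < n) ∧ ∀ σ, σ = 1 ∨ σ = -1 → Tendsto (fun X : ℕ =>
      (cnt (fun D => 0 < σ * D ∧ P D) X - n * g (16 * t ^ 2) 1 0 X) / X) atTop (𝓝 0) := by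
  set Q := 16 * t ^ 2 with hQ
  have h0 : Q ≠ 0 := by positivity
  have h0' : (0 : ℤ) < Q := by positivity
  set T := (Ico (0 : ℤ) Q).filter fun b => ∃ D, Fd D ∧ P D ∧ D % Q = b with hT
  have hm : ∀ D, Fd D → P D → D % Q ∈ T := fun D h1 h2 => mem_filter.2
    ⟨mem_Ico.2 ⟨Int.emod_nonneg _ h0'.ne', Int.emod_lt_of_pos _ h0'⟩, D, h1, h2, rfl⟩
  refine ⟨T.card, fun ⟨D, h1, h2⟩ => card_pos.2 ⟨_, hm D h1 h2⟩, fun σ hσ => ?_⟩
  have e : ∀ X, (cnt (fun D => 0 < σ * D ∧ P D) X - T.card * g Q 1 0 X) / X =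
      ∑ b ∈ T, (cnt (fun D => (0 < σ * D ∧ P D) ∧ D % Q = b) X - g Q 1 0 X) / X := by
    intro X
    rw [← sum_div, sum_sub_distrib, sum_const, nsmul_eq_mul]
    unfold cnt
    rw [card_eq_sum_card_fiberwise (f := fun D : ℤ => D % Q) (t := T) fun D hD =>
      hm D (mem_fam.1 (mem_flt.1 hD).1).2.2 (mem_flt.1 hD).2.2, Nat.cast_sum]
    congr 2
    refine sum_congr rfl fun b _ => congrArg _ (congrArg _ ?_)
    ext D
    simp only [mem_filter, mem_flt, and_assoc]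
  simp only [e]
  rw [show (0 : ℝ) = ∑ _b ∈ T, 0 from sum_const_zero.symm]
  refine tendsto_finsetSum _ fun b hb => ?_
  obtain ⟨-, D, h1, h2, rfl⟩ := mem_filter.1 hb
  have e2 : (fun n => (0 < σ * n ∧ P n) ∧ n % Q = D % Q) = fun n => 0 < σ * n ∧ n ≡ D [ZMOD Q] :=
    funext fun n => propext ⟨fun h => ⟨h.1.1, h.2⟩, fun h => ⟨⟨h.1, hP _ _ h.2.symm h2⟩, h.2⟩⟩
  rw [e2]
  have k1 : Tendsto (fun X : ℕ => (cnt (fun n => 0 < σ * n ∧ n ≡ D [ZMOD Q]) X - g Q σ D X) / X)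
      atTop (𝓝 0) := by
    refine squeeze_zero_norm (fun X => ?_) (tendsto_one_div_atTop_nhds_zero_nat (𝕜 := ℝ))
    rw [norm_div, Real.norm_natCast]
    exact div_le_div_of_nonneg_right (cnt_class h1 X) X.cast_nonneg
  have k2 := k1.add (g_sub h0 hσ (.inl rfl) D 0)
  rw [add_zero] at k2
  exact k2.congr fun X => by ring

lemma flt_or {P P₁ P₂ : ℤ → Prop} (h : ∀ D, IsFund D → (P D ↔ P₁ D ∨ P₂ D))
    (h' : ∀ D, P₁ D → ¬ P₂ D) (f : ℤ → ℝ) (X : ℕ) :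
    ∑ D ∈ flt P X, f D = ∑ D ∈ flt P₁ X, f D + ∑ D ∈ flt P₂ X, f D := by
  rw [← sum_union (disjoint_left.2 fun D k k' => h' D (mem_flt.1 k).2 (mem_flt.1 k').2)]
  refine sum_congr ?_ fun _ _ => rfl
  ext D
  simp only [mem_union, mem_flt, ← and_or_left]
  exact and_congr_right fun k => h D (mem_fam.1 k).2

lemma cnt_or {P P₁ P₂ : ℤ → Prop} (h : ∀ D, IsFund D → (P D ↔ P₁ D ∨ P₂ D))
    (h' : ∀ D, P₁ D → ¬ P₂ D) (X : ℕ) : cnt P X = cnt P₁ X + cnt P₂ X := by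
  simpa [cnt] using flt_or h h' (fun _ => 1) X

lemma cnt_sign (P : ℤ → Prop) (X : ℕ) :
    cnt P X = cnt (fun D => 0 < 1 * D ∧ P D) X + cnt (fun D => 0 < -1 * D ∧ P D) X := by
  refine cnt_or (fun D hD => ⟨fun h => ?_, fun h => h.elim And.right And.right⟩)
    (fun D h k => by omega) X
  rcases lt_or_gt_of_ne (Fd.ne hD.2) with c | c
  exacts [.inr ⟨by omega, h⟩, .inl ⟨by omega, h⟩]

lemma small {f : ℕ → ℝ} (h : Tendsto (fun X : ℕ => f X / X) atTop (𝓝 0)) :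
    Tendsto (fun X : ℕ => f X / (Fam X).card) atTop (𝓝 0) := by
  obtain ⟨c, hc, h1⟩ := _root_.P004.pfCount
  have h2 := h.norm.div_const c
  rw [norm_zero, zero_div] at h2
  refine squeeze_zero_norm' ?_ h2
  filter_upwards [eventually_ge_atTop 3] with X hX
  have : (0 : ℝ) < X := by exact_mod_cast (by omega : 0 < X)
  rw [norm_div, norm_div, div_div, Real.norm_natCast, Real.norm_natCast, mul_comm]
  exact div_le_div_of_nonneg_left (norm_nonneg _) (by positivity) (h1 X hX)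

lemma fam_ne : ∀ᶠ X : ℕ in atTop, ((Fam X).card : ℝ) ≠ 0 := by
  obtain ⟨c, hc, h1⟩ := _root_.P004.pfCount
  filter_upwards [eventually_ge_atTop 3] with X hX
  have : (0 : ℝ) < X := by exact_mod_cast (by omega : 0 < X)
  exact ((mul_pos hc this).trans_le (h1 X hX)).ne'

/-- **a periodic property has the same rational density among the positive and among the negative
discriminants** -/
theorem dens {m : ℕ} (hm : m ≠ 0) {P : ℤ → Prop} (hP : ∀ D D', D ≡ D' [ZMOD m] → P D → P D') :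
    ∃ u : ℚ, ((∃ D, Fd D ∧ P D) → 0 < u) ∧ ∀ σ, σ = 1 ∨ σ = -1 → Tendsto (fun X : ℕ =>
      cnt (fun D => 0 < σ * D ∧ P D) X / (Fam X).card) atTop (𝓝 u) := by
  obtain ⟨n, h1, h2⟩ := cnt_per hm fun D D' h => hP D D' (h.of_dvd (by
    push_cast; exact ⟨16 * m, by ring⟩))
  obtain ⟨n₀, h3, h4⟩ := cnt_per (P := fun _ => True) hm fun _ _ _ h => h
  have h5 : (0 : ℝ) < n₀ := by exact_mod_cast h3 ⟨1, .inl ⟨rfl, squarefree_one⟩, trivial⟩
  have h6 := ((small (h4 1 (.inl rfl))).add (small (h4 (-1) (.inr rfl)))).const_sub 1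
  have h7 : Tendsto (fun X : ℕ => g (16 * m ^ 2) 1 0 X / (Fam X).card) atTop
      (𝓝 ((1 - (0 + 0)) / (2 * n₀))) := by
    refine (h6.div_const _).congr' ?_
    filter_upwards [fam_ne] with X hX
    have e := cnt_sign (fun _ => True) X
    rw [cnt, flt, filter_true] at e
    field_simp
    linarith
  refine ⟨n / (2 * n₀), fun h => ?_, fun σ hσ => ?_⟩
  · have := h1 h
    have : 0 < n₀ := by exact_mod_cast h5
    positivity
  · have h8 := (small (h2 σ hσ)).add (h7.const_mul (n : ℝ))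
    convert h8 using 2
    · ring
    · push_cast
      ring

end Vale.Agent.N004
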