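import Mathlib

/-! # P004: the definitions used in the statement -/

open Filter Topology
open scoped Classical

namespace Vale.Agent.N004

/-- `D` is a fundamental discriminant and `D ≠ 1`. -/
def IsFundDisc (D : ℤ) : Prop :=
  D ≠ 1 ∧ ((D % 4 = 1 ∧ Squarefree D) ∨
    ∃ d : ℤ, D = 4 * d ∧ (d % 4 = 2 ∨ d % 4 = 3) ∧ Squarefree d)

/-- The fundamental discriminants `D ≠ 1` with `|D| ≤ X`, of both signs. -/
noncomputable def F (X : ℝ) : Finset ℤ :=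
  (Finset.Icc (-(⌊X⌋₊ : ℤ)) ⌊X⌋₊).filter IsFundDisc

/-- The twist `D y² = x³ + A x + B`, written as `y² = x³ + A D² x + B D³`. -/
def twist (A B D : ℤ) : WeierstrassCurve ℚ := ⟨0, 0, 0, A * D ^ 2, B * D ^ 3⟩

/-- `r` is the analytic rank of `W`: the Hasse-Weil `L`-series of `W` (Mathlib) continues
analytically to `Re s ≥ 1` and vanishes to the order `r` at `s = 1`. -/
def IsAnRank (W : WeierstrassCurve ℚ) (r : ℕ) : Prop :=
  ∃ L : ℂ → ℂ, AnalyticOnNhd ℂ L {s | 1 ≤ s.re} ∧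
    (∀ s : ℂ, 3 / 2 < s.re → LSeriesHasSum (fun n => (W.LFunction n : ℂ)) s (L s)) ∧
    analyticOrderAt L 1 = r

/-- The mean of `f` over the `d` in `S` with `|d| ≤ X` tends to `c`. -/
def Mean (S : Set ℤ) (f : ℤ → ℝ) (c : ℝ) : Prop :=
  Tendsto (fun X : ℝ => (∑ d ∈ (Finset.Icc (-(⌊X⌋₊ : ℤ)) ⌊X⌋₊).filter (· ∈ S), f d) /
    ((Finset.Icc (-(⌊X⌋₊ : ℤ)) ⌊X⌋₊).filter (· ∈ S)).card) atTop (𝓝 c)

/-- Among the `d` in `S`: the number `a d` and the Mordell-Weil rank of the twist are both `0` for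
the proportion `1 - ρ`, both `1` for the proportion `ρ`, and all moments of `a` tend to `ρ`. -/
def Law (A B : ℤ) (a : ℤ → ℕ) (S : Set ℤ) (ρ : ℝ) : Prop :=
  Mean S (fun d => if a d = 0 ∧ Module.rank ℤ (twist A B d).toAffine.Point = 0 then 1 else 0)
    (1 - ρ) ∧
  Mean S (fun d => if a d = 1 ∧ Module.rank ℤ (twist A B d).toAffine.Point = 1 then 1 else 0) ρ ∧
  ∀ k : ℕ, 1 ≤ k → Mean S (fun d => (a d : ℝ) ^ k) ρ

end Vale.Agent.N004
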