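import Vale.Agent.N004.Defs
import Vale.Agent.N004.Cnt
import Vale.Agent.P004N.H3.Gen

/-!
# P004: from the parity to the distribution of the rank in a family of positive density
-/

open Filter Topology Finset
open scoped Classical

namespace Vale.Agent.N004

open _root_.P004 (Fam IsFund)
open Vale.Agent.P004H.H871 (Fd)
open P004N.T8 (Dens)

variable {r : ℤ → ℕ} {S : ℤ → Prop}

/-- the normalized sum of `f` over the discriminants with the property `P` -/
noncomputable def av (P : ℤ → Prop) (f : ℤ → ℝ) (X : ℕ) : ℝ := (∑ D ∈ flt P X, f D) / (Fam X).card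

lemma av_one (P : ℤ → Prop) (X : ℕ) : av P (fun _ => 1) X = cnt P X / (Fam X).card := by
  simp [av, cnt]

lemma av_or {P P₁ P₂ : ℤ → Prop} (h : ∀ D, IsFund D → (P D ↔ P₁ D ∨ P₂ D))
    (h' : ∀ D, P₁ D → ¬ P₂ D) (f : ℤ → ℝ) (X : ℕ) : av P f X = av P₁ f X + av P₂ f X := by
  rw [av, flt_or h h', add_div, av, av]

lemma av_congr {P : ℤ → Prop} {f f' : ℤ → ℝ} (h : ∀ D, IsFund D → P D → f D = f' D) (X : ℕ) :
    av P f X = av P f' X := by
  rw [av, av, sum_congr rfl fun D k => h D (mem_fam.1 (mem_flt.1 k).1).2 (mem_flt.1 k).2]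

lemma av_split (S : ℤ → Prop) (r : ℤ → ℕ) (f : ℕ → ℝ) (X : ℕ) : av S (fun D => f (r D)) X =
    f 0 * av (fun D => S D ∧ r D = 0) (fun _ => 1) X +
      f 1 * av (fun D => S D ∧ r D = 1) (fun _ => 1) X +
      av (fun D => S D ∧ 2 ≤ r D) (fun D => f (r D)) X := by
  rw [av_or (P₁ := fun D => S D ∧ r D ≤ 1) (P₂ := fun D => S D ∧ 2 ≤ r D)
      (fun D _ => by rw [← and_or_left, and_iff_left (by omega)]) (fun D h k => by omega),
    av_or (P := fun D => S D ∧ r D ≤ 1) (P₁ := fun D => S D ∧ r D = 0)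
      (P₂ := fun D => S D ∧ r D = 1)
      (fun D _ => by rw [← and_or_left]; exact and_congr_right fun _ => by omega)
      (fun D h k => by omega),
    av_congr (P := fun D => S D ∧ r D = 0) (f' := fun _ => f 0) fun D _ h => by rw [h.2],
    av_congr (P := fun D => S D ∧ r D = 1) (f' := fun _ => f 1) fun D _ h => by rw [h.2]]
  simp only [av, sum_const, nsmul_eq_mul]
  ring

lemma big (h1 : Dens r) (h2 : ∀ k, 1 ≤ k → P004N.T8.Mean r k) (S : ℤ → Prop) {f : ℕ → ℝ} {k : ℕ}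
    (hf : ∀ n, 2 ≤ n → 0 ≤ f n ∧ f n ≤ (n : ℝ) ^ (k + 1)) :
    Tendsto (av (fun D => S D ∧ 2 ≤ r D) fun D => f (r D)) atTop (𝓝 0) := by
  have h3 : Tendsto (av (fun D => True ∧ 2 ≤ r D) fun D => (r D : ℝ) ^ (k + 1)) atTop (𝓝 0) := by
    have h4 := (h2 (k + 1) (by omega)).sub (h1 1 le_rfl)
    rw [sub_self] at h4
    refine h4.congr fun X => ?_
    have e := av_split (fun _ => True) r (fun n => (n : ℝ) ^ (k + 1)) X
    have e1 : flt (fun _ => True) X = Fam X := filter_true _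
    have e2 : flt (fun D => True ∧ r D = 1) X = (Fam X).filter fun D => r D = 1 := by
      ext D
      simp only [mem_flt, mem_filter, true_and]
    rw [av_one, av_one, av, e1, cnt, cnt, e2] at e
    rw [e]
    simp
  refine squeeze_zero (fun X => ?_) (fun X => ?_) h3
  · exact div_nonneg (sum_nonneg fun D h => (hf _ (mem_flt.1 h).2.2).1) (by positivity)
  · refine div_le_div_of_nonneg_right ?_ (by positivity)
    refine (sum_le_sum fun D h => (hf _ (mem_flt.1 h).2.2).2).trans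
      (sum_le_sum_of_subset_of_nonneg (fun D h => ?_) fun _ _ _ => by positivity)
    exact mem_flt.2 ⟨(mem_flt.1 h).1, trivial, (mem_flt.1 h).2.2⟩

/-- the elements of `S` of size at most `X` -/
noncomputable def bx (S : Set ℤ) (X : ℕ) : Finset ℤ := (Icc (-(X : ℤ)) X).filter (· ∈ S)

lemma mem_bx {S : Set ℤ} {X : ℕ} {d : ℤ} : d ∈ bx S X ↔ (-(X : ℤ) ≤ d ∧ d ≤ X) ∧ d ∈ S := by
  rw [bx, mem_filter, mem_Icc]

lemma mean_iff {S : Set ℤ} {f : ℤ → ℝ} {c : ℝ} : Mean S f c ↔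
    Tendsto (fun X : ℕ => (∑ d ∈ bx S X, f d) / (bx S X).card) atTop (𝓝 c) :=
  ⟨fun h => (h.comp tendsto_natCast_atTop_atTop).congr fun X => by
    simp only [Function.comp, Nat.floor_natCast]
    rfl, fun h => h.comp (tendsto_nat_floor_atTop (α := ℝ))⟩

lemma flt_eq (T : Set ℤ) (X : ℕ) : bx {D | IsFundDisc D ∧ D ∈ T} X = flt (· ∈ T) X := by
  ext D
  rw [mem_bx, mem_flt, mem_fam]
  exact and_assoc.symm

lemma mean_of {T : Set ℤ} {f : ℤ → ℝ} {u v : ℝ} (hu : u ≠ 0)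
    (h1 : Tendsto (av (· ∈ T) fun _ => 1) atTop (𝓝 u)) (h2 : Tendsto (av (· ∈ T) f) atTop (𝓝 v)) :
    Mean {D | IsFundDisc D ∧ D ∈ T} f (v / u) := by
  refine mean_iff.2 ((h2.div h1 hu).congr' ?_)
  filter_upwards [fam_ne] with X hX
  rw [Pi.div_apply, av_one, av, div_div_div_cancel_right₀ hX, flt_eq, cnt]

theorem law {A B : ℤ} {a : ℤ → ℕ} (h1 : Dens r) (h2 : ∀ k, 1 ≤ k → P004N.T8.Mean r k)
    (ha : ∀ D, IsFund D → a D = r D)
    (hr : ∀ D, IsFund D → r D ≤ 1 → Module.rank ℤ (twist A B D).toAffine.Point = r D)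
    {T : Set ℤ} {u v : ℝ} (hu : u ≠ 0) (k1 : Tendsto (av (· ∈ T) fun _ => 1) atTop (𝓝 u))
    (k2 : Tendsto (av (· ∈ T) fun D => if Odd (r D) then 1 else 0) atTop (𝓝 v)) :
    Law A B a {D | IsFundDisc D ∧ D ∈ T} (v / u) := by
  have one : ∀ n : ℕ, 2 ≤ n → (1 : ℝ) ≤ (n : ℝ) ^ (0 + 1) := fun n h => by
    rw [zero_add, pow_one]
    exact_mod_cast (by omega : 1 ≤ n)
  have t1 : Tendsto (av (fun D => D ∈ T ∧ r D = 1) fun _ => 1) atTop (𝓝 v) := by
    have := k2.sub (big h1 h2 (· ∈ T) (f := fun n => if Odd n then 1 else 0) (k := 0)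
      fun n h => by split_ifs; exacts [⟨zero_le_one, one n h⟩, ⟨le_rfl, by positivity⟩])
    rw [sub_zero] at this
    refine this.congr fun X => ?_
    rw [av_split (· ∈ T) r fun n => if Odd n then 1 else 0]
    simp
  have t0 : Tendsto (av (fun D => D ∈ T ∧ r D = 0) fun _ => 1) atTop (𝓝 (u - v)) := by
    have := (k1.sub t1).sub (big h1 h2 (· ∈ T) (f := fun _ => 1) (k := 0)
      fun n h => ⟨zero_le_one, one n h⟩)
    rw [sub_zero] at this
    refine this.congr fun X => ?_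
    rw [av_split (· ∈ T) r fun _ => 1]
    ring
  have key : ∀ (f : ℕ → ℝ) (k : ℕ), (∀ n, 2 ≤ n → 0 ≤ f n ∧ f n ≤ (n : ℝ) ^ (k + 1)) →
      ∀ f' : ℤ → ℝ, (∀ D, IsFund D → f' D = f (r D)) →
      Mean {D | IsFundDisc D ∧ D ∈ T} f' ((f 0 * (u - v) + f 1 * v) / u) := fun f k hf f' e => by
    refine mean_of hu k1 ?_
    have := ((t0.const_mul (f 0)).add (t1.const_mul (f 1))).add (big h1 h2 (· ∈ T) hf)
    rw [add_zero] at this
    exact this.congr fun X => by rw [← av_split, av_congr fun D h _ => e D h]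
  have ind : ∀ j : ℕ, j ≤ 1 → Mean {D | IsFundDisc D ∧ D ∈ T} (fun D => if a D = j ∧
      Module.rank ℤ (twist A B D).toAffine.Point = j then 1 else 0)
      (((if 0 = j then 1 else 0) * (u - v) + (if 1 = j then 1 else 0) * v) / u) := fun j hj =>
    key (fun n => if n = j then 1 else 0) 0
      (fun n h => by rw [if_neg (by omega)]; exact ⟨le_rfl, by positivity⟩) _ fun D h => by
      rw [ha D h]
      exact if_congr ⟨And.left, fun e => ⟨e, e ▸ hr D h (e ▸ hj)⟩⟩ rfl rfl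
  refine ⟨?_, ?_, fun k hk => ?_⟩
  · have := ind 0 zero_le_one
    rw [show 1 - v / u = ((if 0 = 0 then 1 else 0) * (u - v) + (if 1 = 0 then 1 else 0) * v) / u by
      simp [sub_div, hu]]
    simpa only [Nat.cast_zero] using this
  · simpa using ind 1 le_rfl
  · obtain ⟨k, rfl⟩ := Nat.exists_eq_add_of_le' hk
    simpa using key (fun n => (n : ℝ) ^ (k + 1)) k (fun n _ => ⟨by positivity, le_rfl⟩)
      (fun D => (a D : ℝ) ^ (k + 1)) fun D h => by rw [ha D h]

end Vale.Agent.N004
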