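import Vale.Agent.N004.Law
import Vale.Agent.P004N.H3.Base

/-!
# P004: from fundamental discriminants to squarefree integers and to all integers
-/

open Filter Topology Finset
open scoped Classical

namespace Vale.Agent.N004

open _root_.P004 (Fam IsFund)
open Vale.Agent.P004H.H871 (Fd)
open P004N.T8 (sqp sqp_spec sqp_fund sqf_unique Dm)

variable {S : Set ℤ} {f g : ℤ → ℝ} {c : ℝ}

lemma small_of_mean (h : Mean S f c) :
    Tendsto (fun X : ℕ => (∑ d ∈ bx S X, (f d - c)) / X) atTop (𝓝 0) := by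
  have h1 := ((mean_iff.1 h).sub_const c).norm.mul_const 3
  rw [sub_self, norm_zero, zero_mul] at h1
  refine squeeze_zero_norm' ?_ h1
  filter_upwards [eventually_gt_atTop 0] with X hX
  have hX' : (1 : ℝ) ≤ X := by exact_mod_cast hX
  have h2 : (bx S X).card ≤ 2 * X + 1 := (card_filter_le _ _).trans_eq (by
    rw [Int.card_Icc]; omega)
  have h3 : ((bx S X).card : ℝ) ≤ 2 * X + 1 := by exact_mod_cast h2
  have e : ∑ d ∈ bx S X, (f d - c) =
      ((∑ d ∈ bx S X, f d) / (bx S X).card - c) * (bx S X).card := by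
    rcases (bx S X).eq_empty_or_nonempty with k | k
    · simp [k]
    · have : ((bx S X).card : ℝ) ≠ 0 := by exact_mod_cast k.card_pos.ne'
      rw [sum_sub_distrib, sum_const, nsmul_eq_mul]
      field_simp
  rw [e, mul_div_assoc, norm_mul, Real.norm_of_nonneg (by positivity : 0 ≤ (_ : ℝ) / X)]
  refine mul_le_mul_of_nonneg_left ?_ (norm_nonneg _)
  rw [div_le_iff₀ (by linarith)]
  linarith

lemma mean_of_small (hS : ∀ X, (Fam X).card ≤ (bx S X).card)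
    (h : Tendsto (fun X : ℕ => (∑ d ∈ bx S X, (f d - c)) / X) atTop (𝓝 0)) : Mean S f c := by
  have h1 := (small h).norm
  rw [norm_zero] at h1
  rw [mean_iff, tendsto_iff_norm_sub_tendsto_zero]
  refine squeeze_zero' (.of_forall fun _ => norm_nonneg _) ?_ h1
  filter_upwards [fam_ne] with X hX
  have h2 : (0 : ℝ) < (Fam X).card := lt_of_le_of_ne (by positivity) hX.symm
  have h3 : ((Fam X).card : ℝ) ≤ (bx S X).card := by exact_mod_cast hS X
  have e : (∑ d ∈ bx S X, f d) / (bx S X).card - c =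
      (∑ d ∈ bx S X, (f d - c)) / (bx S X).card := by
    rw [sum_sub_distrib, sum_const, nsmul_eq_mul, sub_div, mul_div_cancel_left₀ _ (by linarith)]
  rw [e, norm_div, norm_div, Real.norm_natCast, Real.norm_natCast]
  exact div_le_div_of_nonneg_left (norm_nonneg _) h2 h3

lemma sum_sqf (hg : ∀ d, d ≠ 0 → g (4 * d) = g d) {Y : ℕ} (hY : 0 < Y) :
    ∑ d ∈ bx {d | Squarefree d} Y, g d = g 1 +
      ∑ d ∈ bx {D | IsFundDisc D ∧ (D : ZMod 2) ∈ ({1} : Set (ZMod 2))} Y, g d +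
      ∑ d ∈ bx {D | IsFundDisc D ∧ (D : ZMod 2) ∈ ({0} : Set (ZMod 2))} (4 * Y), g d := by
  have o : ∀ d : ℤ, (d : ZMod 2) ∈ ({1} : Set (ZMod 2)) ↔ d % 2 = 1 := fun d =>
    (ZMod.intCast_eq_one_iff_odd).trans Int.odd_iff
  have z : ∀ d : ℤ, (d : ZMod 2) ∈ ({0} : Set (ZMod 2)) ↔ d % 2 = 0 := fun d =>
    (ZMod.intCast_eq_zero_iff_even).trans Int.even_iff
  rw [← sum_filter_add_sum_filter_not _ fun d => d % 4 = 1]
  congr 1
  · rw [← sum_insert fun h => (mem_bx.1 h).2.1.1 rfl]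
    refine sum_congr ?_ fun _ _ => rfl
    ext d
    simp only [mem_filter, mem_insert, mem_bx, Set.mem_ofPred_eq, o]
    constructor
    · rintro ⟨⟨h1, h2⟩, h3⟩
      by_cases e : d = 1
      exacts [.inl e, .inr ⟨h1, ⟨e, .inl ⟨h3, h2⟩⟩, by omega⟩]
    · rintro (rfl | ⟨h1, ⟨-, h2 | ⟨k, rfl, -⟩⟩, h3⟩)
      exacts [⟨⟨by omega, squarefree_one⟩, rfl⟩, ⟨⟨h1, h2.2⟩, h2.1⟩, by omega]
  · refine sum_bij (fun d _ => 4 * d) (fun d h => ?_) (fun _ _ _ _ h => by omega) (fun D h => ?_)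
      fun d h => (hg d (mem_bx.1 (mem_filter.1 h).1).2.ne_zero).symm
    · obtain ⟨h1, h2⟩ := mem_filter.1 h
      obtain ⟨h3, h4⟩ := mem_bx.1 h1
      have h5 : ¬ (4 : ℤ) ∣ d := sqf_iff.1 h4 2 Nat.prime_two
      exact mem_bx.2 ⟨by push_cast; omega, ⟨by omega, .inr ⟨d, rfl, by omega, h4⟩⟩,
        (z _).2 (by omega)⟩
    · obtain ⟨h1, ⟨-, h2 | ⟨d, rfl, h2, h3⟩⟩, h4⟩ := mem_bx.1 h
      · have := (z _).1 h4
        omega
      · push_cast at h1
        exact ⟨d, mem_filter.2 ⟨mem_bx.2 ⟨by omega, h3⟩, by omega⟩, rfl⟩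

lemma sum_all (hg : ∀ d s, d ≠ 0 → s ≠ 0 → g (d * s ^ 2) = g d) (X : ℕ) :
    ∑ d ∈ bx {d | d ≠ 0} X, g d =
      ∑ k ∈ Icc 1 X, ∑ d ∈ bx {d | Squarefree d} (X / k ^ 2), g d := by
  have b : ∀ (k : ℕ) (d : ℤ), 0 < k → ((-((X / k ^ 2 : ℕ) : ℤ) ≤ d ∧ d ≤ (X / k ^ 2 : ℕ)) ↔
      -(X : ℤ) ≤ d * k ^ 2 ∧ d * k ^ 2 ≤ X) := fun k d hk => by
    rw [← abs_le, ← abs_le, abs_mul, abs_of_nonneg (sq_nonneg (k : ℤ)), Int.natCast_div,
      Int.le_ediv_iff_mul_le (by positivity), Nat.cast_pow]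
  rw [sum_sigma']
  symm
  refine sum_bij (fun x _ => x.2 * (x.1 : ℤ) ^ 2) (fun x h => ?_) (fun x h y h' e => ?_)
    (fun d h => ?_) fun x h => ?_
  · obtain ⟨h1, h2⟩ := mem_sigma.1 h
    have h3 : 0 < x.1 := (mem_Icc.1 h1).1
    exact mem_bx.2 ⟨(b _ _ h3).1 (mem_bx.1 h2).1,
      mul_ne_zero (mem_bx.1 h2).2.ne_zero (by positivity)⟩
  · obtain ⟨k, d⟩ := x
    obtain ⟨k', d'⟩ := y
    obtain ⟨h1, h2⟩ := mem_sigma.1 h
    obtain ⟨h3, h4⟩ := mem_sigma.1 h'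
    have h5 : 0 < k := (mem_Icc.1 h1).1
    have h6 : 0 < k' := (mem_Icc.1 h3).1
    obtain rfl : d = d' := sqf_unique (mem_bx.1 h2).2 (mem_bx.1 h4).2 (by positivity)
      (by positivity) e
    have h7 : (k : ℤ) ^ 2 = k' ^ 2 := mul_left_cancel₀ (mem_bx.1 h2).2.ne_zero e
    obtain rfl : k = k' := by exact_mod_cast (sq_eq_sq₀ (by positivity) (by positivity)).1 h7
    rfl
  · obtain ⟨h1, h2⟩ := mem_bx.1 h
    obtain ⟨h3, s, h4, h5⟩ := sqp_spec h2
    have h6 : 0 < s.natAbs := Int.natAbs_pos.2 h5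
    have e : sqp d * (s.natAbs : ℤ) ^ 2 = d := by rw [Int.natAbs_sq, ← h4]
    refine ⟨⟨s.natAbs, sqp d⟩, mem_sigma.2 ⟨mem_Icc.2 ⟨h6, ?_⟩,
      mem_bx.2 ⟨(b _ _ h6).2 (e.symm ▸ h1), h3⟩⟩, e⟩
    have h7 : (s.natAbs : ℤ) ∣ d := ⟨sqp d * s.natAbs, by linear_combination -e⟩
    have h8 := Int.le_of_dvd (abs_pos.2 h2) ((dvd_abs _ _).2 h7)
    have h9 := abs_le.2 h1
    show s.natAbs ≤ X
    omega
  · obtain ⟨h1, h2⟩ := mem_sigma.1 h
    have h3 : 0 < x.1 := (mem_Icc.1 h1).1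
    exact (hg _ _ (mem_bx.1 h2).2.ne_zero (by positivity)).symm

lemma tannery {s : ℕ → ℝ} (h0 : s 0 = 0) (h : Tendsto (fun Y : ℕ => s Y / Y) atTop (𝓝 0)) :
    Tendsto (fun X : ℕ => (∑ k ∈ Icc 1 X, s (X / k ^ 2)) / X) atTop (𝓝 0) := by
  obtain ⟨C, hC⟩ := h.norm.bddAbove_range
  have h1 : ∀ Y : ℕ, ‖s Y / Y‖ ≤ C := fun Y => hC ⟨Y, rfl⟩
  have h2 : ∀ X k : ℕ, ‖s (X / k ^ 2) / X‖ ≤
      ‖s (X / k ^ 2) / (X / k ^ 2 : ℕ)‖ * (1 / (k : ℝ) ^ 2) := fun X k => by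
    by_cases e : X / k ^ 2 = 0
    · simp [e, h0]
    · obtain ⟨k1, k2⟩ := Nat.div_ne_zero_iff.1 e
      have k3 : (0 : ℝ) < (X / k ^ 2 : ℕ) := by exact_mod_cast Nat.pos_of_ne_zero e
      have k4 : (0 : ℝ) < (k : ℝ) ^ 2 := by exact_mod_cast Nat.pos_of_ne_zero k1
      rw [norm_div, norm_div, Real.norm_natCast, Real.norm_natCast, mul_one_div, div_div]
      refine div_le_div_of_nonneg_left (norm_nonneg _) (by positivity) ?_
      exact_mod_cast Nat.div_mul_le_self X (k ^ 2)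
  have h3 := tendsto_tsum_of_dominated_convergence (𝓕 := atTop)
    (f := fun X k : ℕ => s (X / k ^ 2) / X) (g := fun _ => 0)
    ((Real.summable_one_div_nat_pow.2 one_lt_two).mul_left C) (fun k => ?_)
    (.of_forall fun X k => (h2 X k).trans (by gcongr; exact h1 _))
  · rw [tsum_zero] at h3
    refine h3.congr fun X => ?_
    rw [tsum_eq_sum (s := Icc 1 X) fun k hk => ?_, sum_div]
    rw [mem_Icc, not_and_or] at hk
    rw [Nat.div_eq_zero_iff.2 (hk.imp (fun e => by simp [show k = 0 by omega])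
      fun e => by nlinarith), h0, zero_div]
  · rcases k.eq_zero_or_pos with rfl | hk
    · simp [h0]
    · have := ((h.comp (Nat.tendsto_div_const_atTop (pow_pos hk 2).ne')).norm).mul_const
        (1 / (k : ℝ) ^ 2)
      rw [norm_zero, zero_mul] at this
      exact squeeze_zero_norm (fun X => h2 X k) this

/-- **other orderings** -/
theorem ord (hf : ∀ d s, d ≠ 0 → s ≠ 0 → f (d * s ^ 2) = f d)
    (h1 : Mean {D | IsFundDisc D ∧ (D : ZMod 2) ∈ ({1} : Set (ZMod 2))} f c)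
    (h0 : Mean {D | IsFundDisc D ∧ (D : ZMod 2) ∈ ({0} : Set (ZMod 2))} f c) :
    Mean {d | Squarefree d} f c ∧ Mean {d | d ≠ 0} f c := by
  have k : Tendsto (fun X : ℕ => (∑ d ∈ bx {d | Squarefree d} X, (f d - c)) / X) atTop (𝓝 0) := by
    have := ((tendsto_const_div_atTop_nhds_zero_nat (f 1 - c)).add (small_of_mean h1)).add
      (((small_of_mean h0).comp (tendsto_id.const_mul_atTop' (show 0 < 4 by norm_num))).const_mul 4)
    rw [mul_zero, add_zero, add_zero] at this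
    refine this.congr' ?_
    filter_upwards [eventually_gt_atTop 0] with X hX
    have hX' : (X : ℝ) ≠ 0 := by exact_mod_cast hX.ne'
    rw [sum_sqf (g := fun d => f d - c) (fun d h => by
      rw [show 4 * d = d * 2 ^ 2 by ring, hf d 2 h two_ne_zero]) hX]
    simp only [Function.comp, id]
    push_cast
    field_simp
  refine ⟨mean_of_small (fun X => ?_) k, mean_of_small (fun X => card_le_card fun D h =>
    mem_bx.2 ⟨(mem_fam.1 h).1, (mem_fam.1 h).2.2.ne⟩) ?_⟩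
  · refine card_le_card_of_injOn sqp (fun D h => ?_) fun D h D' h' e => ?_
    · obtain ⟨h2, -, h3⟩ := mem_fam.1 h
      exact mem_bx.2 ⟨abs_le.1 ((sqp_fund h3).2.2.trans (abs_le.2 h2)), (sqp_spec h3.ne).1⟩
    · rw [← (sqp_fund (mem_fam.1 h).2.2).1, e, (sqp_fund (mem_fam.1 h').2.2).1]
  · refine (tannery (s := fun Y => ∑ d ∈ bx {d | Squarefree d} Y, (f d - c)) ?_ k).congr
      fun X => by rw [sum_all (g := fun d => f d - c) fun d s h h' => by rw [hf d s h h']]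
    refine sum_eq_zero fun d h => ?_
    obtain ⟨h2, h3⟩ := mem_bx.1 h
    exact absurd (by omega) h3.ne_zero

end Vale.Agent.N004
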