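import Vale.Agent.N004.Law

/-!
# P004: the distribution of the rank in residue classes and for each sign
-/

open Filter Topology Finset
open scoped Classical

namespace Vale.Agent.N004

open _root_.P004 (Fam IsFund)
open Vale.Agent.P004H.H871 (Fd)
open P004N.T8 (Dens)

lemma av_ind {P R P' : ℤ → Prop} {_ : DecidablePred R} (h : ∀ D, IsFund D → (P' D ↔ P D ∧ R D))
    (X : ℕ) : av P (fun D => if R D then 1 else 0) X = cnt P' X / (Fam X).card := by
  rw [av, ← sum_filter, sum_const, nsmul_eq_mul, mul_one, cnt]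
  congr 3
  ext D
  simp only [mem_filter, mem_flt, and_assoc]
  exact and_congr_right fun k => (h D (mem_fam.1 k).2).symm

lemma cnt_congr {P P' : ℤ → Prop} (h : ∀ D, P D ↔ P' D) : cnt P = cnt P' := by
  rw [show P = P' from funext fun D => propext (h D)]

theorem prog {A B : ℤ} {a r : ℤ → ℕ} (h1 : Dens r) (h2 : ∀ k, 1 ≤ k → P004N.T8.Mean r k)
    (ha : ∀ D, IsFund D → a D = r D)
    (hr : ∀ D, IsFund D → r D ≤ 1 → Module.rank ℤ (twist A B D).toAffine.Point = r D)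
    {q : ℕ} {w : ZMod q → ℤ} (hq : 0 < q) (hw : ∀ D, Fd D → (-1) ^ r D = D.sign * w D)
    {m : ℕ} (hm : 0 < m) {C : Set (ZMod m)} (hC : ∃ D, IsFund D ∧ (D : ZMod m) ∈ C) :
    Law A B a {D | IsFundDisc D ∧ (D : ZMod m) ∈ C} (1 / 2) ∧ ∃ ρ : ℚ,
      Law A B a {D | IsFundDisc D ∧ 0 < D ∧ (D : ZMod m) ∈ C} ρ ∧
      Law A B a {D | IsFundDisc D ∧ D < 0 ∧ (D : ZMod m) ∈ C} (1 - ρ) := by
  obtain ⟨u, hu, k1⟩ := dens hm.ne' (P := fun D => (D : ZMod m) ∈ C) fun D D' h k =>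
    (ZMod.intCast_eq_intCast_iff _ _ _).2 h ▸ k
  obtain ⟨v, -, k2⟩ := dens (Nat.mul_pos hm hq).ne' (P := fun D => (D : ZMod m) ∈ C ∧ w D ≠ 1)
    fun D D' h k => by
      push_cast at h
      exact ⟨(ZMod.intCast_eq_intCast_iff _ _ _).2 (h.of_mul_right _) ▸ k.1,
        (ZMod.intCast_eq_intCast_iff _ _ _).2 (h.of_mul_left _) ▸ k.2⟩
  have u0 : (u : ℝ) ≠ 0 := by
    obtain ⟨D, h, k⟩ := hC
    exact_mod_cast (hu ⟨D, h.2, k⟩).ne'
  have o1 : ∀ D, IsFund D → 0 < D → (Odd (r D) ↔ w D ≠ 1) := fun D h k => by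
    have := hw D h.2
    rw [Int.sign_eq_one_of_pos k, one_mul] at this
    rw [← this, ← Nat.not_even_iff_odd, Ne, neg_one_pow_eq_one_iff_even (by norm_num)]
  have o2 : ∀ D, IsFund D → D < 0 → (Odd (r D) ↔ w D = 1) := fun D h k => by
    have := hw D h.2
    rw [Int.sign_eq_neg_one_of_neg k] at this
    rcases Nat.even_or_odd (r D) with e | e <;> rw [e.neg_one_pow] at this
    · exact iff_of_false (Nat.not_odd_iff_even.2 e) (by omega)
    · exact iff_of_true e (by omega)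
  have p1 : Tendsto (av (· ∈ {D : ℤ | 0 < D ∧ (D : ZMod m) ∈ C}) fun _ => 1) atTop (𝓝 u) :=
    (k1 1 (.inl rfl)).congr fun X => by
      rw [av_one, cnt_congr (P' := (· ∈ {D : ℤ | 0 < D ∧ (D : ZMod m) ∈ C})) fun D => by simp]
  have p2 : Tendsto (av (· ∈ {D : ℤ | D < 0 ∧ (D : ZMod m) ∈ C}) fun _ => 1) atTop (𝓝 u) :=
    (k1 (-1) (.inr rfl)).congr fun X => by
      rw [av_one, cnt_congr (P' := (· ∈ {D : ℤ | D < 0 ∧ (D : ZMod m) ∈ C})) fun D => by simp]
  have q1 : Tendsto (av (· ∈ {D : ℤ | 0 < D ∧ (D : ZMod m) ∈ C})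
      fun D => if Odd (r D) then 1 else 0) atTop (𝓝 v) :=
    (k2 1 (.inl rfl)).congr fun X => (av_ind (fun D h => by
      simp only [one_mul, Set.mem_ofPred_eq, and_assoc]
      exact and_congr_right fun k => and_congr_right fun _ => (o1 D h k).symm) X).symm
  have q2 : Tendsto (av (· ∈ {D : ℤ | D < 0 ∧ (D : ZMod m) ∈ C})
      fun D => if Odd (r D) then 1 else 0) atTop (𝓝 (u - v)) :=
    ((k1 (-1) (.inr rfl)).sub (k2 (-1) (.inr rfl))).congr fun X => by
      rw [av_ind (P' := fun D => D < 0 ∧ (D : ZMod m) ∈ C ∧ w D = 1) (fun D h => by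
        simp only [Set.mem_ofPred_eq, and_assoc]
        exact and_congr_right fun k => and_congr_right fun _ => (o2 D h k).symm),
        cnt_or (P₁ := fun D => D < 0 ∧ (D : ZMod m) ∈ C ∧ w D = 1)
          (P₂ := fun D => 0 < -1 * D ∧ (D : ZMod m) ∈ C ∧ w D ≠ 1)
          (fun D _ => by simp only [neg_mul, one_mul, neg_pos]; tauto) fun D h k => k.2.2 h.2.2]
      ring
  have sp : ∀ f X, av (· ∈ {D : ℤ | (D : ZMod m) ∈ C}) f X =
      av (· ∈ {D : ℤ | 0 < D ∧ (D : ZMod m) ∈ C}) f X +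
        av (· ∈ {D : ℤ | D < 0 ∧ (D : ZMod m) ∈ C}) f X := av_or (fun D h => by
      have := Fd.ne h.2
      simp only [Set.mem_ofPred_eq, ← or_and_right]
      exact (and_iff_right (by omega)).symm) fun D h k => lt_asymm h.1 k.1
  refine ⟨?_, v / u, ?_, ?_⟩
  · rw [show (1 / 2 : ℝ) = (v + (u - v)) / (u + u) by field_simp; ring]
    exact (law h1 h2 ha hr (fun e => u0 (by linarith))
      ((p1.add p2).congr fun X => (sp _ X).symm) ((q1.add q2).congr fun X => (sp _ X).symm) :)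
  · rw [Rat.cast_div]
    exact (law h1 h2 ha hr u0 p1 q1 :)
  · rw [show (1 : ℝ) - (v / u : ℚ) = (u - v) / u by push_cast; field_simp]
    exact (law h1 h2 ha hr u0 p2 q2 :)

end Vale.Agent.N004
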