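import Vale.Agent.N004.Par
import Vale.Agent.N004.Prog
import Vale.Agent.N004.Ord
import Vale.Agent.P004M.All
import Vale.Agent.P004T.All
import Vale.Agent.P004F.All
import Vale.Agent.P004R.All
import Vale.Agent.P004C.All
import Vale.Agent.P014T.Top
import Vale.Agent.P014T.Ct.All
import Vale.Agent.P014T.La.Kti
import Vale.Agent.P014T.Tp.Bv0
import Vale.Agent.P014T.Tp.Lgi
import Vale.Agent.P014T.Tp.LguAll
import Vale.Agent.P014T.Pl.All
import Vale.Agent.P014T.Nv.All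
import Vale.Agent.P014T.Ht.Can
import Vale.Agent.P014T.Lk.Mod

/-!
# P004: analytic rank and Mordell-Weil rank of all quadratic twists
-/

open Filter Topology Finset
open scoped Classical

namespace Vale.Agent.N004

open _root_.P004 (Fam IsFund)
open Vale.Agent.P004H.H871 (Fd)
open P004N (EF IsEll)
open P004N.T8 (Cont Dens sqp sqp_spec sqp_fund sqp_mul_sq Dm fd_Dm)
open Vale.Agent.P014T Vale.Agent.P014T.Top

variable {A B : ℤ}

theorem md : MODN := fun _ _ h =>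
  let ⟨N, G, a, k⟩ := Lk.mod0 P004M.modular h
  ⟨N, G, a, k.1, k.2⟩

theorem gzk0 (h : El A B) {r : ℕ} (r1 : r ≤ 1) (ar : Ar A B r) :
    Module.rank ℤ (Lc.Wq (sI A B)).toAffine.Point = r := by
  obtain ⟨N, G, a, nf⟩ := md A B h
  have l := lgu_all A B h N G a nf
  obtain ⟨v, -, -, -, ⟨S, -, L, Q, ρ, -, -, hQ, -⟩, -⟩ :=
    mt_of Ct.kato_all La.kti (bv0 md) (Pl.bv1_all md Nv.nvd_all) lgi twa A B h N G a 1 A B r r nf
      ad_one one_pos l l h (by simpa using Ae.refl A B) r1 r1 ar ar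
  rw [← rank_quotient_eq_of_le_torsion le_rfl,
    ← (LinearEquiv.ofBijective _ (Cn.basis_iff.1 hQ)).rank_eq, rank_fin_fun]

/-- the Mordell-Weil rank in analytic rank at most one -/
theorem gzk (h : El A B) {d : ℤ} (hd : d ≠ 0) {r : ℕ} (r1 : r ≤ 1)
    (ar : IsAnRank (twist A B d) r) : Module.rank ℤ (twist A B d).toAffine.Point = r := by
  have e : twist A B d = Lc.Wq (sI (A * d ^ 2) (B * d ^ 3)) := by
    ext <;> simp [twist, sI]
  rw [e] at ar ⊢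
  obtain ⟨L, h1, h2, h3⟩ := ar
  exact gzk0 (h.tw hd) r1 ⟨L, ⟨h1, h2⟩, h3⟩

lemma lf_sq (h : El A B) {d s : ℤ} (hd : d ≠ 0) (hs : s ≠ 0) :
    (twist A B (d * s ^ 2)).LFunction = (twist A B d).LFunction := by
  have hs' : (s : ℚ) ≠ 0 := by exact_mod_cast hs
  have h1 : (twist A B d).Δ ≠ 0 := by
    have e : (twist A B d).Δ = ((-16 * (4 * (A * d ^ 2) ^ 3 + 27 * (B * d ^ 3) ^ 2) : ℤ) : ℚ) := by
      simp [twist, WeierstrassCurve.Δ, WeierstrassCurve.b₂, WeierstrassCurve.b₄,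
        WeierstrassCurve.b₆, WeierstrassCurve.b₈]
      ring
    rw [e]
    exact_mod_cast mul_ne_zero (by norm_num) (h.tw hd)
  rw [← Lk.lf_smul _ h1 ⟨(Units.mk0 _ hs')⁻¹, 0, 0, 0⟩]
  congr 1
  ext <;> simp [twist, WeierstrassCurve.variableChange_def] <;> ring

lemma lf_Dm (h : El A B) {d : ℤ} (hd : d ≠ 0) :
    (twist A B d).LFunction = (twist A B (Dm (sqp d))).LFunction := by
  obtain ⟨h1, s, h2, h3⟩ := sqp_spec hd
  conv_lhs => rw [h2, lf_sq h h1.ne_zero h3]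
  unfold Dm
  split_ifs
  · rfl
  · rw [show 4 * sqp d = sqp d * 2 ^ 2 by ring, lf_sq h h1.ne_zero two_ne_zero]

lemma an_uniq {W : WeierstrassCurve ℚ} {r r' : ℕ} (h : IsAnRank W r) (h' : IsAnRank W r') :
    r = r' := by
  obtain ⟨L, h1, h2, h3⟩ := h
  obtain ⟨L', h4, h5, h6⟩ := h'
  have := (P004N.IsCont.unique (IsEll.isCont ⟨h1, h2⟩) (IsEll.isCont ⟨h4, h5⟩)).2
  rw [h3, h6] at this
  exact_mod_cast this

theorem base (h : El A B) : ∃ r : ℤ → ℕ, (∀ D, Fd D → IsAnRank (twist A B D) (r D)) ∧ Dens r ∧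
    (∀ k, 1 ≤ k → P004N.T8.Mean r k) ∧
    ∃ (q : ℕ) (w : ZMod q → ℤ), 0 < q ∧ ∀ D, Fd D → (-1) ^ r D = D.sign * w D := by
  obtain ⟨N, G, a, nf, fin⟩ := md A B h
  have hf : EF N G a := ⟨nf.pos, nf.s2, nf.qe, nf.one, nf.te⟩
  obtain ⟨r, k1, k2, k3⟩ := P004T.dens_all
    (P004F.conv3 (P004R.anchor_red.or P004C.anchor_irr)) hf fun _ _ => (Classical.em _).symm
  refine ⟨r, fun D hD => ?_, k2, fun k hk => (k3 k hk).2.2.1 k2, par hf k1⟩
  obtain ⟨M, g, b, ε, hT, -⟩ := P004N.exists_isTw hf hD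
  obtain ⟨L, h1, -, -, h4⟩ := k1 D hD M g b ε hT
  have hA : P004N.Att A B a := by
    refine ⟨∏ p ∈ fin.toFinset, p, prod_ne_zero_iff.2 fun p hp => ?_, fun p hp hpS => ?_⟩
    · exact (fin.mem_toFinset.1 hp).1.ne_zero
    · by_contra hne
      exact hpS (dvd_prod_of_mem _ (fin.mem_toFinset.2 ⟨hp, hne⟩))
  obtain ⟨L', h5, h6⟩ := P004N.ell_isEll hf hD hT h1 h hA
  exact ⟨L', h5.1, h5.2, h6.trans h4⟩

lemma F_eq (X : ℝ) : F X = Fam ⌊X⌋₊ := rfl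

theorem main (h : El A B) : ∃ a : ℤ → ℕ,
    (∀ d, d ≠ 0 → ∀ r, IsAnRank (twist A B d) r ↔ r = a d) ∧
    (∀ j : ℕ, j ≤ 1 → ∀ (P : ℤ → Prop) (_ : DecidablePred P), (∀ D, IsFundDisc D → (P D ↔ a D = j)) →
      Tendsto (fun X : ℝ => (((F X).filter P).card : ℝ) / (F X).card) atTop (𝓝 (1 / 2))) ∧
    Tendsto (fun X : ℝ => (∑ D ∈ F X, (a D : ℝ)) / (F X).card) atTop (𝓝 (1 / 2)) ∧
    (∀ d, d ≠ 0 → a d ≤ 1 → Module.rank ℤ (twist A B d).toAffine.Point = a d) ∧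
    (∃ (q : ℕ) (w : ZMod q → ℤ), 0 < q ∧ ∀ D, IsFundDisc D → (-1) ^ a D = D.sign * w D) ∧
    (∀ (m : ℕ) (C : Set (ZMod m)), 0 < m → (∃ D, IsFundDisc D ∧ (D : ZMod m) ∈ C) →
      Law A B a {D | IsFundDisc D ∧ (D : ZMod m) ∈ C} (1 / 2) ∧ ∃ ρ : ℚ,
        Law A B a {D | IsFundDisc D ∧ 0 < D ∧ (D : ZMod m) ∈ C} ρ ∧
        Law A B a {D | IsFundDisc D ∧ D < 0 ∧ (D : ZMod m) ∈ C} (1 - ρ)) ∧
    Law A B a {d | Squarefree d} (1 / 2) ∧ Law A B a {d | d ≠ 0} (1 / 2) := by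
  obtain ⟨r, h1, h2, h3, q, w, hq, hw⟩ := base h
  have a1 : ∀ d, d ≠ 0 → IsAnRank (twist A B d) (r (Dm (sqp d))) := fun d hd => by
    have := h1 _ (fd_Dm (sqp_spec hd).1)
    unfold IsAnRank at this ⊢
    rwa [lf_Dm h hd]
  have a2 : ∀ D, IsFund D → r (Dm (sqp D)) = r D := fun D hD => by rw [(sqp_fund hD.2).1]
  have a3 : ∀ d, d ≠ 0 → r (Dm (sqp d)) ≤ 1 →
      Module.rank ℤ (twist A B d).toAffine.Point = r (Dm (sqp d)) := fun d hd k =>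
    gzk h hd k (a1 d hd)
  have a4 := fun (m : ℕ) (C : Set (ZMod m)) (hm : 0 < m) hC =>
    prog (C := C) h2 h3 a2 (fun D hD k => gzk h (Fd.ne hD.2) k (h1 D hD.2)) hq hw hm hC
  have o1 := (a4 2 {1} two_pos ⟨-3, ⟨by norm_num, .inl ⟨by norm_num,
    Int.prime_three.neg.squarefree⟩⟩, by decide⟩).1
  have o0 := (a4 2 {0} two_pos ⟨-4, ⟨by norm_num, .inr ⟨-1, by norm_num, by norm_num,
    isUnit_one.neg.squarefree⟩⟩, by decide⟩).1
  have inv : ∀ j : ℕ, j ≤ 1 → ∀ (c : Cardinal), c = j → ∀ d s : ℤ, d ≠ 0 → s ≠ 0 →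
      (if r (Dm (sqp (d * s ^ 2))) = j ∧
        Module.rank ℤ (twist A B (d * s ^ 2)).toAffine.Point = c then (1 : ℝ) else 0) =
      if r (Dm (sqp d)) = j ∧ Module.rank ℤ (twist A B d).toAffine.Point = c then 1 else 0 := by
    rintro j hj _ rfl d s hd hs
    have k : ∀ x, x ≠ 0 → (r (Dm (sqp x)) = j ∧ Module.rank ℤ (twist A B x).toAffine.Point = j ↔
      r (Dm (sqp x)) = j) := fun x hx => ⟨And.left, fun e => ⟨e, e ▸ a3 x hx (e ▸ hj)⟩⟩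
    refine if_congr ?_ rfl rfl
    rw [k _ (mul_ne_zero hd (pow_ne_zero 2 hs)), k _ hd, sqp_mul_sq hd hs]
  have t0 := ord (inv 0 zero_le_one 0 Nat.cast_zero.symm) o1.1 o0.1
  have t1 := ord (inv 1 le_rfl 1 Nat.cast_one.symm) o1.2.1 o0.2.1
  have t2 := fun k hk => ord (f := fun d => (r (Dm (sqp d)) : ℝ) ^ k)
    (fun d s hd hs => by rw [sqp_mul_sq hd hs]) (o1.2.2 k hk) (o0.2.2 k hk)
  refine ⟨fun d => r (Dm (sqp d)), fun d hd k => ⟨fun e => an_uniq e (a1 d hd),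
    fun e => e ▸ a1 d hd⟩, fun j hj P _ hP => ?_, ?_, a3,
    ⟨q, w, hq, fun D hD => (congrArg _ (a2 D hD)).trans (hw D hD.2)⟩, a4,
    ⟨t0.1, t1.1, fun k hk => (t2 k hk).1⟩, t0.2, t1.2, fun k hk => (t2 k hk).2⟩
  · refine ((h2 j hj).comp (tendsto_nat_floor_atTop (α := ℝ))).congr fun X => ?_
    have e : (F X).filter P = (Fam ⌊X⌋₊).filter fun D => r D = j := by
      ext D
      rw [mem_filter, mem_filter, F_eq]
      exact and_congr_right fun k => by rw [hP D (mem_fam.1 k).2, ← a2 D (mem_fam.1 k).2]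
    rw [e, F_eq, Function.comp]
  · refine ((h3 1 le_rfl).comp (tendsto_nat_floor_atTop (α := ℝ))).congr fun X => ?_
    rw [F_eq, Function.comp, sum_congr rfl fun D k => by
      rw [pow_one, ← a2 D (mem_fam.1 k).2]]

end Vale.Agent.N004
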