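import Vale.Agent.N004.Cnt
import Vale.Agent.P004T.Top
import Vale.Agent.P004N.H3.Lib

/-!
# P004: the parity of the rank is the sign of the discriminant times a periodic function
-/

open UpperHalfPlane
open scoped NumberTheorySymbols

namespace Vale.Agent.N004

open P004N (NF EF IsTw)
open P004N.T8 (Cont kr_neg kr_neg_class)
open Vale.Agent.P004H.H871 (kr Fd kr_odd kr_one_mod kr_pm)
open Vale.Agent.P004T (ds ds_spec split_fd)

variable {N : ℕ} {f : ℍ → ℂ} {a : ℕ → ℤ} {r : ℤ → ℕ}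

lemma par_tw (hr : Cont a r) {D : ℤ} (hD : Fd D) {M : ℕ} {g : ℍ → ℂ} {b : ℕ → ℝ} {ε : ℝ}
    (hT : IsTw a D M g b ε) : (-1 : ℝ) ^ r D = -ε := by
  obtain ⟨L, h1, -, -, h2⟩ := hr D hD M g b ε hT
  obtain ⟨η, h3⟩ := P004N.T8.nf_lde hT.1
  have h4 := P004N.T8.stPari_of P004N.T8.libL.par η b _ _ L h3 (P004N.T8.nf_fe hT.1) h1
  rw [analyticOrderNatAt, h2, ENat.toNat_natCast] at h4
  rcases Nat.even_or_odd (r D) with k | k
  · rw [k.neg_one_pow, h4.2 k]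
  · rw [k.neg_one_pow]
    rcases hT.1.sgn with e | e
    · rw [e]
    · exact absurd (h4.1 (by rw [e, neg_neg])) (Nat.not_even_iff_odd.2 k)

lemma par_class (hf : EF N f a) (hr : Cont a r) {D₀ : ℤ} (h0 : Fd D₀) :
    ∃ (M : ℕ) (ε : ℝ), 0 < M ∧ M ∣ N * D₀.natAbs ^ 2 ∧ ∀ d : ℤ, d % 4 = 1 → Squarefree d →
      IsCoprime (M : ℤ) d → Fd (D₀ * d) →
      (-1 : ℝ) ^ r (D₀ * d) = -(ε * (d.sign * J((M : ℤ) | d.natAbs) : ℤ)) := by
  obtain ⟨M, g, b, ε, h1, -, h3, h4, -⟩ := P004N.pfNewP N f a hf D₀ h0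
  refine ⟨M, ε, h1.pos, h4, fun d e1 hs hc hD => ?_⟩
  have hS : 0 < N * D₀.natAbs := Nat.mul_pos hf.pos (Int.natAbs_pos.2 h0.ne)
  have hd : Fd d := Or.inl ⟨e1, hs⟩
  obtain ⟨G, hG⟩ := P004N.H65.twNF h1 hd hc
  have hT : IsTw a (D₀ * d) _ G _ _ := ⟨hG, 2 * (N * D₀.natAbs), by omega, fun p hp k => by
    have k2 : Odd p := hp.odd_of_ne_two (by rintro rfl; exact k (dvd_mul_right _ _))
    show b p * _ = _
    rw [h3 p (hp.coprime_iff_not_dvd.2 fun e => k (e.mul_left _)), kr_odd hD k2, kr_odd hd k2,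
      kr_odd h0 k2, jacobiSym.mul_left]
    push_cast; ring⟩
  rw [par_tw hr hD hT, kr_neg e1]

lemma jac_one {M : ℕ} (hM : 0 < M) {m : ℤ} (h : (4 * M : ℤ) ∣ m - 1) :
    J((M : ℤ) | m.natAbs) = 1 := by
  have h1 : m % 4 = 1 := by
    have := (dvd_mul_right 4 (M : ℤ)).trans h
    omega
  have h2 := kr_neg_class hM h
  rw [kr_neg h1] at h2
  exact mul_left_cancel₀ (Int.sign_eq_zero_iff_zero.not.2 (by omega)) (h2.trans (mul_one _).symm)

lemma jac_per {M : ℕ} (hM : 0 < M) {d d' : ℤ} (hc : IsCoprime d (4 * M))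
    (h : (4 * M : ℤ) ∣ d' - d) : J((M : ℤ) | d.natAbs) = J((M : ℤ) | d'.natAbs) := by
  obtain ⟨t, u, e⟩ := hc
  have k1 : (4 * M : ℤ) ∣ d * t - 1 := ⟨-u, by linear_combination e⟩
  have k2 : (4 * M : ℤ) ∣ d' * t - 1 := by
    rw [show d' * t - 1 = (d' - d) * t + (d * t - 1) by ring]
    exact (h.mul_right _).add k1
  have n : ∀ x : ℤ, (4 * M : ℤ) ∣ x * t - 1 →
      J((M : ℤ) | x.natAbs) * J((M : ℤ) | t.natAbs) = 1 := fun x k => by
    have k0 : x * t ≠ 0 := by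
      have := (dvd_mul_right 4 (M : ℤ)).trans k
      omega
    rw [← jacobiSym.mul_right' _ (Int.natAbs_ne_zero.2 (left_ne_zero_of_mul k0))
      (Int.natAbs_ne_zero.2 (right_ne_zero_of_mul k0)), ← Int.natAbs_mul, jac_one hM k]
  exact mul_right_cancel₀ (right_ne_zero_of_mul_eq_one (n d k1)) ((n d k1).trans (n d' k2).symm)

lemma par_per (hf : EF N f a) (hr : Cont a r) {D D' : ℤ} (hD : Fd D) (hD' : Fd D')
    (h : (2048 * N ^ 5 : ℤ) ∣ D' - D) : D.sign * (-1) ^ r D = D'.sign * (-1) ^ r D' := by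
  obtain ⟨D₀, δ, rfl, h0, ⟨e, he⟩, ho, hs, hc⟩ := split_fd N hD
  obtain ⟨e1, e2⟩ := ds_spec ho
  generalize ds δ = d at *
  subst e2
  obtain ⟨k, hk⟩ := h
  obtain ⟨M, ε, h1, h2, h3⟩ := par_class hf hr h0
  have hM : (M : ℤ) ∣ 64 * N ^ 3 := by
    have k1 : (M : ℤ) ∣ N * D₀ ^ 2 := by
      have := Int.natCast_dvd_natCast.2 h2
      push_cast at this
      rwa [sq_abs] at this
    exact k1.trans ⟨e ^ 2, by linear_combination (8 * N + D₀ * e) * N * he⟩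
  have c2 : IsCoprime d 2 := Int.isCoprime_two_right.2 (Int.natAbs_odd.1 ho)
  have cN : IsCoprime d N := by
    rw [Int.isCoprime_iff_gcd_eq_one]
    exact hc.symm
  have c3 : IsCoprime d (256 * N ^ 4) := by
    have := (c2.pow_right (n := 8)).mul_right (cN.pow_right (n := 4))
    norm_num at this ⊢
    exact this
  set d' := d + 256 * N ^ 4 * (e * k) with hd'
  have e3 : D' = D₀ * d' := by rw [hd']; linear_combination hk + 256 * N ^ 4 * k * he
  have c4 : IsCoprime d' (256 * N ^ 4) := c3.add_mul_left_left _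
  have hM' : (4 * M : ℤ) ∣ 256 * N ^ 4 :=
    (mul_dvd_mul_left 4 hM).trans ⟨N, by ring⟩
  have hM'' : (M : ℤ) ∣ 256 * N ^ 4 := (dvd_mul_left _ 4).trans hM'
  have e4 : d' % 4 = 1 := by
    rw [hd', show (256 : ℤ) * N ^ 4 * (e * k) = 4 * (64 * N ^ 4 * (e * k)) by ring]
    omega
  have s' : Squarefree d' := sqf_iff.2 fun p hp k1 => by
    refine free_of_fd (t := 1) hD' p hp (fun k2 => ?_) (e3 ▸ k1.mul_left _)
    have k3 : p = 2 := (Nat.prime_dvd_prime_iff_eq hp Nat.prime_two).1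
      (hp.dvd_of_dvd_pow (n := 4) k2)
    subst k3
    have : (4 : ℤ) ∣ d' := k1
    omega
  have p1 := h3 d e1 (Int.squarefree_natAbs.1 hs) (c3.of_isCoprime_of_dvd_right hM'').symm hD
  have p2 := h3 d' e4 s' (c4.of_isCoprime_of_dvd_right hM'').symm (e3 ▸ hD')
  rw [← jac_per h1 (c3.of_isCoprime_of_dvd_right hM') (d' := d')
    (by rw [hd', add_sub_cancel_left]; exact hM'.mul_right _)] at p2
  have sq : ∀ x : ℤ, x % 4 = 1 → ((x.sign : ℤ) : ℝ) * x.sign = 1 := fun x k => by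
    rcases lt_or_gt_of_ne (show x ≠ 0 by omega) with c | c
    · simp [Int.sign_eq_neg_one_of_neg c]
    · simp [Int.sign_eq_one_of_pos c]
  refine Int.cast_injective (α := ℝ) ?_
  rw [e3]
  push_cast [Int.sign_mul] at p1 p2 ⊢
  rw [p1, p2]
  linear_combination (ε * D₀.sign * J((M : ℤ) | d.natAbs)) * (sq d' e4 - sq d e1)

/-- **the root number** -/
theorem par (hf : EF N f a) (hr : Cont a r) :
    ∃ (q : ℕ) (w : ZMod q → ℤ), 0 < q ∧ ∀ D, Fd D → (-1) ^ r D = D.sign * w D := by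
  classical
  have := hf.pos
  refine ⟨2048 * N ^ 5, fun c => if h : ∃ D : ℤ, Fd D ∧ (D : ZMod (2048 * N ^ 5)) = c then
    h.choose.sign * (-1) ^ r h.choose else 1, by positivity, fun D hD => ?_⟩
  have h : ∃ D' : ℤ, Fd D' ∧ (D' : ZMod (2048 * N ^ 5)) = D := ⟨D, hD, rfl⟩
  have h1 := (ZMod.intCast_eq_intCast_iff_dvd_sub _ _ _).1 h.choose_spec.2
  beta_reduce
  rw [dif_pos h, par_per hf hr h.choose_spec.1 hD (by exact_mod_cast h1), ← mul_assoc]
  rcases lt_or_gt_of_ne hD.ne with c | c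
  · simp [Int.sign_eq_neg_one_of_neg c]
  · simp [Int.sign_eq_one_of_pos c]

end Vale.Agent.N004
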